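import Vale.Agent.P273.H852.RegionDefs
import Vale.Agent.P273.H708.OrderMeas
import Vale.Agent.P273.H852.Neck3

/-!
# P273, NEG (c3): almost every point of a region

For a region `R` of 852 and almost every point `((u, θ), z)` of `R.meas D`: the sizes are in the
domain, the angles in the box, the core marks in the core and not in a given null set, and no neck
mark is at a root (`U ≠ V`).
-/

namespace Vale.Agent.P273.H266

open MeasureTheory Finset H852 H708

section Core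

/-- a point outside the neck is not close to its centre -/
theorem norm_sub_ge_of_notMem_ell {e ε : ℂ} {c : ℝ} (hc : 0 < c) (hε : ‖ε‖ ≤ c ^ 2 / 4) {x : ℂ}
    (hx : x ∉ ell e ε c) : c / 4 ≤ ‖x - e‖ := by
  by_contra h
  push Not at h
  apply hx
  obtain ⟨s, hs⟩ : ∃ s : ℂ, s ^ 2 = (x - e) ^ 2 - ε := by
    obtain ⟨s, hs⟩ := IsAlgClosed.exists_pow_nat_eq ((x - e) ^ 2 - ε) (n := 2) (by norm_num)
    exact ⟨s, hs⟩
  have h1 : ‖s‖ ^ 2 ≤ (3 / 4 * c) ^ 2 * (9 / 16 : ℝ)⁻¹ * (5 / 16) := by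
    have h2 : ‖s‖ ^ 2 = ‖(x - e) ^ 2 - ε‖ := by rw [← norm_pow, hs]
    rw [h2]
    calc ‖(x - e) ^ 2 - ε‖ ≤ ‖(x - e) ^ 2‖ + ‖ε‖ := norm_sub_le _ _
      _ ≤ (c / 4) ^ 2 + c ^ 2 / 4 := by
          rw [norm_pow]
          exact add_le_add (pow_le_pow_left₀ (norm_nonneg _) h.le 2) hε
      _ = _ := by ring
  have h2 : ‖s‖ < 3 / 4 * c := by
    refine lt_of_pow_lt_pow_left₀ 2 (by positivity) (lt_of_le_of_lt h1 ?_)
    have : 0 < c ^ 2 := by positivity
    nlinarith
  refine ⟨(x - e) + s, (x - e) - s, by linear_combination -hs, by ring, ?_, ?_⟩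
  · calc ‖x - e + s‖ ≤ ‖x - e‖ + ‖s‖ := norm_add_le _ _
      _ < c := by linarith
  · calc ‖x - e - s‖ ≤ ‖x - e‖ + ‖s‖ := norm_sub_le _ _
      _ < c := by linarith

end Core

variable {ι K : Type*} [Fintype ι] [DecidableEq ι] [Fintype K] [DecidableEq K]

theorem norm_tau_eq (R : Reg ι K) (D : Necks K) (u θ : R.Gf → ℝ) (g : R.Gap) :
    ‖R.tau D u θ g‖ = Real.exp (-(fullGap (R.m g.1) (D.Y g.1) (fun i => u ⟨g.1, i⟩) g.2)) := by
  simp [Reg.tau, Complex.norm_exp]

theorem norm_U (R : Reg ι K) (D : Necks K) (hD : D.Good) (u θ : R.Gf → ℝ) (k : K)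
    (i : Fin (R.n k)) : ‖R.U D (R.tau D u θ) k i‖ = D.c k *
      Real.exp (-(posOf (fullGap (R.m k) (D.Y k) (fun i => u ⟨k, i⟩)) i)) := by
  rw [Reg.U, norm_mul, norm_prod, Complex.norm_real, Real.norm_of_nonneg (hD.c_pos k).le, posOf,
    ← Finset.sum_neg_distrib, Real.exp_sum]
  congr 1
  exact Finset.prod_congr rfl fun j _ => norm_tau_eq R D u θ ⟨k, j⟩

theorem norm_V (R : Reg ι K) (D : Necks K) (hD : D.Good) (u θ : R.Gf → ℝ) (k : K)
    (i : Fin (R.n k)) : ‖R.V D (R.tau D u θ) k i‖ = D.c k *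
      Real.exp (-(D.Y k - posOf (fullGap (R.m k) (D.Y k) (fun i => u ⟨k, i⟩)) i)) := by
  have h0 : ∑ j ∈ Ioi i.castSucc, fullGap (R.m k) (D.Y k) (fun i => u ⟨k, i⟩) j =
      D.Y k - posOf (fullGap (R.m k) (D.Y k) (fun i => u ⟨k, i⟩)) i := by
    have h1 := sum_fullGap (R.m k) (D.Y k) (fun i => u ⟨k, i⟩)
    rw [posOf, eq_sub_iff_add_eq, add_comm]
    refine Eq.trans ?_ h1
    rw [← Finset.sum_union]
    · refine Finset.sum_congr ?_ fun _ _ => rfl
      ext j
      simp [le_or_gt]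
    · rw [Finset.disjoint_left]
      intro j h2 h3
      rw [Finset.mem_Iic] at h2
      rw [Finset.mem_Ioi] at h3
      exact absurd h3 (not_lt.2 h2)
  rw [Reg.V, norm_mul, norm_prod, Complex.norm_real, Real.norm_of_nonneg (hD.c_pos k).le, ← h0,
    ← Finset.sum_neg_distrib, Real.exp_sum]
  congr 1
  exact Finset.prod_congr rfl fun j _ => norm_tau_eq R D u θ ⟨k, j⟩

/-- the position of the mark `i` as a linear form of the sizes -/
noncomputable def posL (R : Reg ι K) (k : K) (i : Fin (R.n k)) : (R.Gf → ℝ) →ₗ[ℝ] ℝ :=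
  (LinearMap.proj i).comp ((gapLin ℝ (R.m k)).toLinearMap.comp
    (LinearMap.funLeft ℝ ℝ fun i => (⟨k, i⟩ : R.Gf)))

theorem posL_ne (R : Reg ι K) (k : K) (i : Fin (R.n k)) : posL R k i ≠ 0 := by
  intro h
  have h1 : Function.Surjective (LinearMap.funLeft ℝ ℝ fun i => (⟨k, i⟩ : R.Gf)) :=
    LinearMap.funLeft_surjective_of_injective _ _ _ fun a b h => by simpa using h
  obtain ⟨u, hu⟩ := h1 ((gapLin ℝ (R.m k)).symm (Pi.single i 1))
  have h2 : posL R k i u = 1 := by
    simp only [posL, LinearMap.comp_apply, hu]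
    simp
  rw [h] at h2
  simp at h2

theorem posL_apply (R : Reg ι K) (k : K) (i : Fin (R.n k)) (u : R.Gf → ℝ) :
    posL R k i u = posOf (fullGap (R.m k) (0 : ℝ) (fun i => u ⟨k, i⟩)) i := by
  simp only [posL, LinearMap.comp_apply, LinearMap.proj_apply, LinearEquiv.coe_coe, gapLin_apply]
  rfl

theorem pos_eq_posL (R : Reg ι K) (k : K) (i : Fin (R.n k)) (Y : ℝ) (u : R.Gf → ℝ) :
    posOf (fullGap (R.m k) Y (fun i => u ⟨k, i⟩)) i =
      posOf (fullGap (R.m k) Y 0) i + posL R k i u := by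
  rw [posL_apply, ← Pi.add_apply, ← posOf_add, ← fullGap_add]
  simp

/-- **no neck mark is at a root**, for almost every size vector -/
theorem ae_U_ne_V (R : Reg ι K) (D : Necks K) (hD : D.Good) :
    ∀ᵐ u : R.Gf → ℝ, ∀ θ : R.Gf → ℝ, ∀ (k : K) (i : Fin (R.n k)),
      R.U D (R.tau D u θ) k i ≠ R.V D (R.tau D u θ) k i := by
  have h : ∀ᵐ u : R.Gf → ℝ, ∀ (k : K) (i : Fin (R.n k)),
      posL R k i u ≠ D.Y k / 2 - posOf (fullGap (R.m k) (D.Y k) 0) i := by
    rw [ae_all_iff]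
    intro k
    rw [ae_all_iff]
    intro i
    have h1 := null_level (posL R k i) (posL_ne R k i)
      (D.Y k / 2 - posOf (fullGap (R.m k) (D.Y k) 0) i)
    rw [ae_iff]
    simpa using h1
  filter_upwards [h] with u hu θ k i he
  apply hu k i
  have h1 := congrArg norm he
  rw [norm_U R D hD, norm_V R D hD] at h1
  have h2 := mul_left_cancel₀ (hD.c_pos k).ne' h1
  have h3 := Real.exp_injective h2
  rw [pos_eq_posL] at h3
  linarith

theorem measurableSet_dom (R : Reg ι K) (D : Necks K) : MeasurableSet (R.dom D) := by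
  have : R.dom D = ⋂ g : R.Gf, {u : R.Gf → ℝ | 0 < u g} ∩
      {u : R.Gf → ℝ | u g < D.Y g.1 - ∑ i, u ⟨g.1, i⟩} := by
    ext u
    simp [Reg.dom]
  rw [this]
  refine MeasurableSet.iInter fun g => MeasurableSet.inter ?_ ?_
  · exact measurableSet_lt measurable_const (measurable_pi_apply g)
  · exact measurableSet_lt (measurable_pi_apply g)
      (measurable_const.sub (Finset.measurable_sum _ fun i _ => measurable_pi_apply _))

omit [DecidableEq K] in
theorem measurableSet_core (D : Necks K) : MeasurableSet D.core :=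
  (MeasurableSet.iUnion fun _ => measurableSet_ell _ _ _).compl

/-- **almost every point of a region** -/
theorem ae_meas (R : Reg ι K) (D : Necks K) (hD : D.Good) {F : Set ℂ} (hF : volume F = 0) :
    ∀ᵐ x ∂(R.meas D), x.1.1 ∈ R.dom D ∧ x.1.2 ∈ R.box ∧ (∀ c, x.2 c ∈ D.core ∧ x.2 c ∉ F) ∧
      ∀ k i, R.U D (R.tau D x.1.1 x.1.2) k i ≠ R.V D (R.tau D x.1.1 x.1.2) k i := by
  have h1 : ∀ᵐ u ∂(volume.restrict (R.dom D)), u ∈ R.dom D ∧
      ∀ θ : R.Gf → ℝ, ∀ (k : K) (i : Fin (R.n k)),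
        R.U D (R.tau D u θ) k i ≠ R.V D (R.tau D u θ) k i :=
    (ae_restrict_mem (measurableSet_dom R D)).and (ae_restrict_of_ae (ae_U_ne_V R D hD))
  have h2 : ∀ᵐ θ ∂(volume.restrict R.box), θ ∈ R.box :=
    ae_restrict_mem (MeasurableSet.univ_pi fun _ => measurableSet_Ioc)
  have h3 : ∀ᵐ z ∂(volume.restrict (Set.univ.pi fun _ : R.Kc => D.core)),
      ∀ c, z c ∈ D.core ∧ z c ∉ F := by
    have h4 : ∀ᵐ z : R.Kc → ℂ, ∀ c, z c ∉ F := by
      rw [ae_all_iff]
      intro c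
      have h5 : ∀ᵐ x : ℂ, x ∉ F := by rw [ae_iff]; simpa using hF
      exact (Measure.quasiMeasurePreserving_eval (fun _ : R.Kc => (volume : Measure ℂ)) c).ae h5
    filter_upwards [ae_restrict_mem (MeasurableSet.univ_pi fun _ => measurableSet_core D),
      ae_restrict_of_ae h4] with z hz hz' c
    exact ⟨hz c (Set.mem_univ _), hz' c⟩
  have h6 := Measure.quasiMeasurePreserving_fst (μ := (volume.restrict (R.dom D)).prod
    (volume.restrict R.box)) (ν := volume.restrict (Set.univ.pi fun _ : R.Kc => D.core))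
  have h7 := Measure.quasiMeasurePreserving_snd (μ := (volume.restrict (R.dom D)).prod
    (volume.restrict R.box)) (ν := volume.restrict (Set.univ.pi fun _ : R.Kc => D.core))
  have h8 := Measure.quasiMeasurePreserving_fst (μ := volume.restrict (R.dom D))
    (ν := volume.restrict R.box)
  have h9 := Measure.quasiMeasurePreserving_snd (μ := volume.restrict (R.dom D))
    (ν := volume.restrict R.box)
  filter_upwards [(h8.comp h6).ae h1, (h9.comp h6).ae h2, h7.ae h3] with x a b c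
  exact ⟨a.1, b, c, a.2 _⟩

end Vale.Agent.P273.H266
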