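import Vale.Agent.P273.H120.Rts
import Vale.Agent.P273.H828.NegBase
import Vale.Agent.P273.H266.Ae1

/-!
# P273, NEG (c3): the neck data of the configuration `fam k b l s`
-/

noncomputable section

namespace Vale.Agent.P273.H266

open Set Filter MeasureTheory H681 H95 H828 H879 H852
open scoped Topology

theorem csq_sq (z : ℂ) : csq z ^ 2 = z := by
  unfold csq
  rw [← Complex.cpow_nat_mul]
  norm_num

theorem measurable_csq : Measurable csq := by
  unfold csq
  fun_prop

/-- The value at the centre of the root of the other four factors. -/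
def gv (k : Fin 5) (b : C6) : ℂ := csq (∏ l : Fin 4, (b k.castSucc - b (jo k l)))

theorem gv_sq (k : Fin 5) (b : C6) : gv k b ^ 2 = ∏ l : Fin 4, (b k.castSucc - b (jo k l)) :=
  csq_sq _

/-- The data of the neck of `fam k b l s`. -/
def nkD (k : Fin 5) (b : C6) (c l s : ℝ) : Necks Unit where
  e _ := b k.castSucc
  c _ := c
  ε _ := zz l s ^ 2
  Y _ := 2 * (l + Real.log c)
  a _ := -(2 * (Real.pi * s))
  G _ x := gv k b * ∏ i : Fin 4, csq ((x - b (jo k i)) / (b k.castSucc - b (jo k i)))
  s x := csq (sx (rts (fam k b l s)) x)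

theorem zz_sq (l s : ℝ) : zz l s ^ 2 =
    Complex.exp (-(2 * l : ℝ) + (-(2 * (Real.pi * s)) : ℝ) * Complex.I) := by
  rw [zz, ← Complex.exp_nat_mul]
  congr 1
  push_cast
  ring

/-- The polynomial of `fam k b l s`. -/
theorem sx_fam (k : Fin 5) (b : C6) (l s : ℝ) (x : ℂ) : sx (rts (fam k b l s)) x =
    ((x - b k.castSucc) ^ 2 - zz l s ^ 2) * ∏ i : Fin 4, (x - b (jo k i)) := by
  rw [H120.sx_rts, Fin.prod_univ_succAbove _ k.castSucc, Fin.prod_univ_succAbove _ k]
  have h1 : k.castSucc.succAbove k = k.succ := Fin.succAbove_castSucc_self k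
  have h2 : fam k b l s k.castSucc = b k.castSucc - zz l s := by simp [fam, pr]
  have h3 : fam k b l s k.succ = b k.castSucc + zz l s := by
    have : k.succ ≠ k.castSucc := Fin.castSucc_lt_succ.ne'
    simp [fam, pr, this]
  have h4 : ∀ i : Fin 4, k.castSucc.succAbove (k.succAbove i) = jo k i :=
    (by decide : ∀ (k : Fin 5) (i : Fin 4), k.castSucc.succAbove (k.succAbove i) = jo k i) k
  have h5 : ∀ i : Fin 4, fam k b l s (jo k i) = b (jo k i) := by
    intro i
    simp [fam, pr, (jo_ne k i).1, (jo_ne k i).2]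
  rw [h1, h2, h3]
  simp_rw [h4, h5]
  ring

/-- **The neck data are good.** -/
theorem good_nkD {k : Fin 5} {b : C6} {c l s : ℝ} (hc : 0 < c) (hl : 0 < l + Real.log c)
    (hb : ∀ i, b k.castSucc ≠ b (jo k i)) : (nkD k b c l s).Good where
  c_pos _ := hc
  Y_pos _ := by simp only [nkD]; linarith
  ε_eq _ := by
    simp only [nkD]
    rw [zz_sq]
    have h : (c : ℂ) ^ 2 = Complex.exp ((2 * Real.log c : ℝ) : ℂ) := by
      rw [← Complex.ofReal_exp, ← Complex.ofReal_pow]
      congr 1
      rw [two_mul, Real.exp_add, Real.exp_log hc]; ring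
    rw [h, ← Complex.exp_add]
    congr 1
    push_cast
    ring
  meas_G _ := by
    simp only [nkD]
    refine measurable_const.mul (Finset.measurable_prod _ fun i _ => measurable_csq.comp ?_)
    fun_prop
  meas_s := by
    simp only [nkD]
    refine measurable_csq.comp ?_
    exact (H120.continuous_sx _).measurable
  sq _ x _ := by
    simp only [nkD]
    rw [csq_sq, sx_fam, mul_pow, gv_sq, ← Finset.prod_pow, ← Finset.prod_mul_distrib]
    congr 1
    refine Finset.prod_congr rfl fun i _ => ?_
    rw [csq_sq]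
    have h : b k.castSucc - b (jo k i) ≠ 0 := sub_ne_zero.2 (hb i)
    field_simp
  disj i j h := absurd (Subsingleton.elim i j) h

/-- At a merged configuration the pair is away from the other roots. -/
theorem ne_of_XD {k : Fin 5} {b : C6} (hb : b ∈ XD k) (i : Fin 4) : b k.castSucc ≠ b (jo k i) := by
  intro h
  have h1 := hb.2
  have hne := jo_ne k i
  rcases lt_or_gt_of_ne hne.1 with h2 | h2
  · have := h1 (jo k i) k.castSucc h2 (Or.inr Fin.castSucc_lt_succ.ne) (by rw [h])
    rw [h] at this
    exact lt_irrefl _ this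
  · have := h1 k.castSucc (jo k i) h2 (Or.inr hne.2) (by rw [h])
    rw [h] at this
    exact lt_irrefl _ this

theorem norm_zz_sq (l s : ℝ) : ‖zz l s ^ 2‖ = Real.exp (-(2 * l)) := by
  rw [zz_sq, Complex.norm_exp]
  simp

end Vale.Agent.P273.H266

end
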