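import Vale.Agent.P273.H879.Pt
import Vale.Agent.P273.H752.Cpt1

/-!
# P273, NEG (P3): the points of the regions of 852 over `fam k b l s` are points of the closed
region `InReg` of 879
-/

set_option linter.unusedSectionVars false
set_option linter.unusedSimpArgs false

noncomputable section

namespace Vale.Agent.P273.H266

open Set Filter MeasureTheory H681 H95 H828 H879 H852 H793 H732
open scoped Topology

/-- my neck data are 879's -/
theorem nkD_eq (k : Fin 5) (b : C6) {c : ℝ} (hc : 0 < c) (l s : ℝ) :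
    nd1 c (2 * (l + Real.log c)) (-(2 * (Real.pi * s))) (bv k b)
      (fun x => gv k b * ∏ i : Fin 4, csq ((x - b (jo k i)) / (b k.castSucc - b (jo k i))))
      (fun x => csq (sx (rts (fam k b l s)) x)) = nkD k b c l s := by
  unfold nd1 nkD
  congr 1
  funext _
  rw [zz_sq]
  have h : (c : ℂ) ^ 2 = Complex.exp ((2 * Real.log c : ℝ) : ℂ) := by
    rw [← Complex.ofReal_exp, ← Complex.ofReal_pow]
    congr 1
    rw [two_mul, Real.exp_add, Real.exp_log hc]; ring
  rw [h, ← Complex.exp_add]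
  congr 1
  push_cast
  ring

theorem csq_eq_zero {z : ℂ} : csq z = 0 ↔ z = 0 := by
  constructor
  · intro h
    rw [← csq_sq z, h]
    simp
  · intro h
    rw [h]
    simp [csq]

section Conv

variable (R : H852.Reg L Unit) {k : Fin 5} {b : C6} {c l s : ℝ} {R₀ : ℝ} {x : Cd R}

theorem core_iff {j : L} : (to1 R).nk j = false ↔ ∀ k, R.A j ≠ Sum.inl k := by
  rw [to1_nk_false]
  constructor
  · rintro ⟨s, hs⟩ k hk
    rw [hk] at hs
    cases hs
  · intro h
    rcases h' : R.A j with k | s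
    · exact absurd h' (h k)
    · exact ⟨s, rfl⟩

theorem neck_of_not_core {j : L} (h : ¬ ∀ k, R.A j ≠ Sum.inl k) : R.A j = Sum.inl () := by
  push Not at h
  exact h.choose_spec

theorem toE_p1 (hc : 0 < c) : (toE k c (pt1 R R₀ k b c l s x)).1 = fam k b l s := by
  refine (toE_fam' hc rfl ?_ fun a => rfl).2
  change -(2 * (Real.pi * s)) = _
  ring

theorem cf_p1 (hc : 0 < c) :
    (to1 R).cf (toSp c (pt1 R R₀ k b c l s x)) = rts (fam k b l s) := by
  rw [H401.Ch1.cf_toSp k, toE_p1 R hc]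

/-- the polynomial on the neck -/
theorem sx_neck (hb : ∀ i, b k.castSucc ≠ b (jo k i)) (z : ℂ) : sx (rts (fam k b l s)) z =
    ((z - b k.castSucc) ^ 2 - zz l s ^ 2) *
      (gv k b * ∏ i : Fin 4, csq ((z - b (jo k i)) / (b k.castSucc - b (jo k i)))) ^ 2 := by
  rw [sx_fam, mul_pow, gv_sq, ← Finset.prod_pow, ← Finset.prod_mul_distrib]
  congr 1
  refine Finset.prod_congr rfl fun i _ => ?_
  rw [csq_sq]
  have h : b k.castSucc - b (jo k i) ≠ 0 := sub_ne_zero.2 (hb i)
  field_simp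

/-- the size of the last gap -/
theorem ul_pt1 (u : Unit) : (wr (to1 R) (m1 R)).ul (pt1 R R₀ k b c l s x) u =
    2 * (l + Real.log c) - ∑ i : Fin (R.n ()), x.1.1 ⟨(), i⟩ := by
  rw [Reg.ul, sum_free]
  congr 1
  rw [← Equiv.sum_comp (finCongr (to1_n R).symm)]
  refine Finset.sum_congr rfl fun i _ => ?_
  exact co1_u R _ _ _ (x.1, zf R R₀ x.2) ⟨(), i⟩

theorem inr_pt1 (hd : x.1.1 ∈ R.dom (nkD k b c l s)) :
    (wr (to1 R) (m1 R)).Inr (pt1 R R₀ k b c l s x) := by
  have h1 : ∀ f, ∃ g, gf1 R g = f := fun f => (gf1 R).surjective f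
  constructor
  · intro f
    obtain ⟨g, rfl⟩ := h1 f
    have h2 : (pt1 R R₀ k b c l s x).1 (gf1 R g) = x.1.1 g := co1_u R _ _ _ (x.1, zf R R₀ x.2) g
    rw [h2]
    exact (hd g).1.le
  · intro f
    obtain ⟨g, rfl⟩ := h1 f
    have h2 : (pt1 R R₀ k b c l s x).1 (gf1 R g) = x.1.1 g := co1_u R _ _ _ (x.1, zf R R₀ x.2) g
    rw [h2, ul_pt1]
    exact (hd g).2.le

/-- 852's points are on the curve -/
theorem yy_sq (hc : 0 < c) (hb : ∀ i, b k.castSucc ≠ b (jo k i)) (j : L) :
    yq R k b c l s x j ^ 2 = sx (rts (fam k b l s)) (xq R k b c l s x j) := by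
  rcases h : R.A j with u | t
  · have hk' : R.A j = Sum.inl () := h
    have h4 := sht_pt1 (R := R) (R₀ := 0) k b c l s x j
    have h5 : vq R 0 k b c l s x j = yq R k b c l s x j := by
      rw [vq, flipv, Sf_neck x.2 hk', if_pos rfl]
    rw [h5] at h4
    rw [← h4, xq_neck (R₀ := 0) k b c l s x hk', sx_neck hb, Region1.sht,
      if_pos ((to1_nk_true R).2 hk'), pos1_neck _ ((to1_nk_true R).2 hk')]
    have h1 : (to1 R).XX (toSp c (pt1 R 0 k b c l s x)) ((to1 R).rk j) *
        (to1 R).YY (toSp c (pt1 R 0 k b c l s x)) ((to1 R).rk j) = zz l s ^ 2 := by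
      have h6 : (to1 R).eps (toSp c (pt1 R 0 k b c l s x)) = zz l s ^ 2 := by
        rw [H401.Ch1.eps_toSp]
        congr 1
        refine (toE_fam' hc rfl ?_ fun a => rfl).1
        change -(2 * (Real.pi * s)) = _
        ring
      rw [← h6]
      unfold Region1.XX Region1.YY Region1.eps
      rw [← Finset.prod_mul_distrib]
      refine Finset.prod_congr rfl fun g _ => ?_
      by_cases h : (g : ℕ) ≤ (to1 R).rk j
      · have h' : ¬ (to1 R).rk j < (g : ℕ) := not_lt.2 h
        simp [h, h']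
      · have h' : (to1 R).rk j < (g : ℕ) := not_le.1 h
        simp [h, h']
    have h2 : (to1 R).ctr (toSp c (pt1 R 0 k b c l s x)) = b k.castSucc := rfl
    have h3 : ∀ i, (to1 R).oth (toSp c (pt1 R 0 k b c l s x)) i = b (jo k i) := fun i => rfl
    rw [← h1]
    simp only [h2, h3]
    ring
  · rw [yq_core k b c l s x h]
    split_ifs
    · rw [csq_sq]
    · rw [neg_sq, csq_sq]

/-- the neck marks are close to the centre -/
theorem norm_neck_le (hc : 0 < c) (hY : 0 < l + Real.log c) (hb : ∀ i, b k.castSucc ≠ b (jo k i))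
    (hd : x.1.1 ∈ R.dom (nkD k b c l s)) {j : L} (h : R.A j = Sum.inl ()) :
    ‖(to1 R).XX (toSp c (pt1 R R₀ k b c l s x)) ((to1 R).rk j)‖ ≤ c ∧
      ‖(to1 R).YY (toSp c (pt1 R R₀ k b c l s x)) ((to1 R).rk j)‖ ≤ c := by
  have hD := good_nkD (k := k) (b := b) (s := s) hc hY hb
  have hr : (((R.ord ()).symm ⟨j, h⟩ : Fin _) : ℕ) = (to1 R).rk j := (rk1_neck R h).symm
  have hg : ∀ g : Fin (R.n () + 1), 0 ≤ fullGap (R.m ()) ((nkD k b c l s).Y ())
      (fun i => x.1.1 ⟨(), i⟩) g := by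
    intro g
    rcases Fin.eq_self_or_eq_succAbove (R.m ()) g with h1 | ⟨i, h1⟩
    · rw [h1, fullGap_same]
      by_cases hn : R.n () = 0
      · have h2 : ∑ i : Fin (R.n ()), x.1.1 ⟨(), i⟩ = 0 := by
          refine Finset.sum_eq_zero fun i _ => ?_
          have h4 := i.2
          omega
        rw [h2, sub_zero]
        exact (hD.Y_pos ()).le
      · have h3 := hd (⟨(), ⟨0, Nat.pos_of_ne_zero hn⟩⟩ : R.Gf)
        exact (h3.1.trans h3.2).le
    · rw [h1, fullGap_succAbove]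
      exact (hd (⟨(), i⟩ : R.Gf)).1.le
  have e0 : ∀ i : Fin (R.n ()), 0 ≤ posOf (fullGap (R.m ()) ((nkD k b c l s).Y ())
      (fun i => x.1.1 ⟨(), i⟩)) i := fun i => Finset.sum_nonneg fun g _ => hg g
  have e1 : ∀ i : Fin (R.n ()), posOf (fullGap (R.m ()) ((nkD k b c l s).Y ())
      (fun i => x.1.1 ⟨(), i⟩)) i ≤ (nkD k b c l s).Y () := by
    intro i
    have h2 := sum_fullGap (R.m ()) ((nkD k b c l s).Y ()) (fun i => x.1.1 ⟨(), i⟩)
    refine le_trans ?_ h2.le
    exact Finset.sum_le_sum_of_subset_of_nonneg (Finset.subset_univ _) fun g _ _ => hg g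
  have hU := norm_U R (nkD k b c l s) hD x.1.1 x.1.2 () ((R.ord ()).symm ⟨j, h⟩)
  have hV := norm_V R (nkD k b c l s) hD x.1.1 x.1.2 () ((R.ord ()).symm ⟨j, h⟩)
  have k1 := U_co1 R c (2 * (l + Real.log c)) (-(2 * (Real.pi * s))) (bv k b)
    (fun x => gv k b * ∏ i : Fin 4, csq ((x - b (jo k i)) / (b k.castSucc - b (jo k i))))
    (fun x => csq (sx (rts (fam k b l s)) x)) (x.1, zf R R₀ x.2) ((R.ord ()).symm ⟨j, h⟩)
  have k2 := V_co1 R c (2 * (l + Real.log c)) (-(2 * (Real.pi * s))) (bv k b)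
    (fun x => gv k b * ∏ i : Fin 4, csq ((x - b (jo k i)) / (b k.castSucc - b (jo k i))))
    (fun x => csq (sx (rts (fam k b l s)) x)) (x.1, zf R R₀ x.2) ((R.ord ()).symm ⟨j, h⟩)
  rw [nkD_eq k b hc l s] at k1 k2
  rw [hr] at k1 k2
  constructor
  · refine le_trans (le_of_eq ?_) (le_trans hU.le ?_)
    · exact congrArg norm k1.symm
    · have h5 : Real.exp (-(posOf (fullGap (R.m ()) ((nkD k b c l s).Y ())
          (fun i => x.1.1 ⟨(), i⟩)) ((R.ord ()).symm ⟨j, h⟩))) ≤ 1 := by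
        rw [Real.exp_le_one_iff, neg_nonpos]; exact e0 _
      calc _ ≤ (nkD k b c l s).c () * 1 :=
            mul_le_mul_of_nonneg_left h5 (hD.c_pos ()).le
        _ = c := mul_one _
  · refine le_trans (le_of_eq ?_) (le_trans hV.le ?_)
    · exact congrArg norm k2.symm
    · have h5 : Real.exp (-((nkD k b c l s).Y () - posOf (fullGap (R.m ()) ((nkD k b c l s).Y ())
          (fun i => x.1.1 ⟨(), i⟩)) ((R.ord ()).symm ⟨j, h⟩))) ≤ 1 := by
        rw [Real.exp_le_one_iff, neg_nonpos, sub_nonneg]; exact e1 _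
      calc _ ≤ (nkD k b c l s).c () * 1 :=
            mul_le_mul_of_nonneg_left h5 (hD.c_pos ()).le
        _ = c := mul_one _

/-- **(P3)** with explicit conditions -/
theorem inReg_pt1 {K : Set C6} {M₀ : ℝ} (hc : 0 < c) (hbK : b ∈ K) (hbX : b ∈ XD k)
    (hcb : ∀ i, c < ‖b k.castSucc - b (jo k i)‖) (hs : s ∈ Icc (0 : ℝ) 1) (hR : 0 < R₀)
    (hM : M₀ ≤ 2 * (l + Real.log c)) (h4 : Real.log 4 ≤ 2 * (l + Real.log c))
    (hd : x.1.1 ∈ R.dom (nkD k b c l s)) (hbx : x.1.2 ∈ R.box)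
    (hcore : ∀ d, x.2 d ∈ (nkD k b c l s).core) (hroot : ∀ d i, x.2 d ≠ fam k b l s i)
    (hUV : ∀ i, R.U (nkD k b c l s) (R.tau (nkD k b c l s) x.1.1 x.1.2) () i ≠
        R.V (nkD k b c l s) (R.tau (nkD k b c l s) x.1.1 x.1.2) () i) :
    InReg k K c R₀ M₀ (Sf R R₀ x.2) (pt1 R R₀ k b c l s x) (gv k b) (vq R R₀ k b c l s x) := by
  have hb : ∀ i, b k.castSucc ≠ b (jo k i) := fun i => ne_of_XD hbX i
  have h40 : 0 < Real.log 4 := Real.log_pos (by norm_num)
  have hY : 0 < l + Real.log c := by linarith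
  have hε : ‖zz l s ^ 2‖ ≤ c ^ 2 / 4 := by
    rw [norm_zz_sq]
    have h1 : Real.exp (-(2 * l)) = c ^ 2 * Real.exp (-(2 * (l + Real.log c))) := by
      have h2 : c ^ 2 = Real.exp (2 * Real.log c) := by
        rw [two_mul, Real.exp_add, Real.exp_log hc]; ring
      rw [h2, ← Real.exp_add]
      congr 1; ring
    have h3 : Real.exp (-(2 * (l + Real.log c))) ≤ 1 / 4 := by
      rw [Real.exp_neg, one_div]
      refine inv_anti₀ (by norm_num) ?_
      rw [← Real.exp_log (show (0 : ℝ) < 4 by norm_num)]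
      exact Real.exp_le_exp.2 h4
    rw [h1]
    calc c ^ 2 * Real.exp (-(2 * (l + Real.log c))) ≤ c ^ 2 * (1 / 4) :=
          mul_le_mul_of_nonneg_left h3 (by positivity)
      _ = c ^ 2 / 4 := by ring
  have hxs : ∀ j, Sf R R₀ x.2 j = true → xq R k b c l s x j ≠ 0 := by
    intro j hj
    obtain ⟨t, ht⟩ := Sf_true hj
    have h1 := (Sf_core x.2 ht).1 hj
    rw [xq_core k b c l s x ht]
    intro h0
    rw [h0, norm_zero] at h1
    linarith
  have hz0 : ∀ j, S0 j ≠ Sf R R₀ x.2 j → xq R k b c l s x j ≠ 0 := by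
    intro j hj
    refine hxs j ?_
    rcases h : Sf R R₀ x.2 j
    · rw [h] at hj; exact absurd rfl hj
    · rfl
  -- the `y` coordinates do not vanish
  have hroot' : ∀ z : ℂ, (∀ i, z ≠ fam k b l s i) → sx (rts (fam k b l s)) z ≠ 0 := by
    intro z hz
    rw [H120.sx_rts]
    exact Finset.prod_ne_zero_iff.2 fun i _ => sub_ne_zero.2 (hz i)
  have hy0 : ∀ j, yq R k b c l s x j ≠ 0 := by
    intro j hj
    rcases h : R.A j with u | t
    · have hk' : R.A j = Sum.inl () := h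
      have h4 := sht_pt1 (R := R) (R₀ := R₀) k b c l s x j
      have h5 : vq R R₀ k b c l s x j = yq R k b c l s x j := by
        rw [vq, flipv, Sf_neck x.2 hk', if_pos rfl]
      rw [h5, hj, Region1.sht, if_pos ((to1_nk_true R).2 hk')] at h4
      obtain ⟨n1, n2⟩ := norm_neck_le (R₀ := R₀) R hc hY hb hd hk'
      have hr : (((R.ord ()).symm ⟨j, hk'⟩ : Fin _) : ℕ) = (to1 R).rk j := (rk1_neck R hk').symm
      have k1 := U_co1 R c (2 * (l + Real.log c)) (-(2 * (Real.pi * s))) (bv k b)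
        (fun x => gv k b * ∏ i : Fin 4, csq ((x - b (jo k i)) / (b k.castSucc - b (jo k i))))
        (fun x => csq (sx (rts (fam k b l s)) x)) (x.1, zf R R₀ x.2) ((R.ord ()).symm ⟨j, hk'⟩)
      have k2 := V_co1 R c (2 * (l + Real.log c)) (-(2 * (Real.pi * s))) (bv k b)
        (fun x => gv k b * ∏ i : Fin 4, csq ((x - b (jo k i)) / (b k.castSucc - b (jo k i))))
        (fun x => csq (sx (rts (fam k b l s)) x)) (x.1, zf R R₀ x.2) ((R.ord ()).symm ⟨j, hk'⟩)
      rw [nkD_eq k b hc l s, hr] at k1 k2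
      have h6 : (to1 R).XX (toSp c (pt1 R R₀ k b c l s x)) ((to1 R).rk j) -
          (to1 R).YY (toSp c (pt1 R R₀ k b c l s x)) ((to1 R).rk j) ≠ 0 := by
        rw [sub_ne_zero]
        intro h7
        refine hUV ((R.ord ()).symm ⟨j, hk'⟩) ?_
        refine Eq.trans k1 (Eq.trans ?_ k2.symm)
        exact h7
      have h8 : gv k b ≠ 0 := by
        intro h9
        have := gv_sq k b
        rw [h9, zero_pow two_ne_zero] at this
        exact (Finset.prod_ne_zero_iff.2 fun i _ => sub_ne_zero.2 (hb i)) this.symm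
      have h9 : ∀ i, csq (((to1 R).pos (toSp c (pt1 R R₀ k b c l s x)) j -
          (to1 R).oth (toSp c (pt1 R R₀ k b c l s x)) i) /
          ((to1 R).ctr (toSp c (pt1 R R₀ k b c l s x)) -
            (to1 R).oth (toSp c (pt1 R R₀ k b c l s x)) i)) ≠ 0 := by
        intro i
        rw [Ne, csq_eq_zero, div_eq_zero_iff, not_or]
        constructor
        · rw [pos1_neck _ ((to1_nk_true R).2 hk'), sub_eq_zero]
          intro h10
          have e1 : (to1 R).ctr (toSp c (pt1 R R₀ k b c l s x)) = b k.castSucc := rfl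
          have e2 : (to1 R).oth (toSp c (pt1 R R₀ k b c l s x)) i = b (jo k i) := rfl
          rw [e1, e2] at h10
          have h11 := hcb i
          have h12 : b k.castSucc - b (jo k i) =
              -(((to1 R).XX (toSp c (pt1 R R₀ k b c l s x)) ((to1 R).rk j) +
                (to1 R).YY (toSp c (pt1 R R₀ k b c l s x)) ((to1 R).rk j)) / 2) := by
            rw [← h10]; ring
          rw [h12, norm_neg, norm_div] at h11
          have h13 := norm_add_le ((to1 R).XX (toSp c (pt1 R R₀ k b c l s x)) ((to1 R).rk j))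
            ((to1 R).YY (toSp c (pt1 R R₀ k b c l s x)) ((to1 R).rk j))
          have h14 : ‖(2 : ℂ)‖ = 2 := by simp
          rw [h14] at h11
          linarith
        · exact sub_ne_zero.2 (hb i)
      have h10 := mul_ne_zero (mul_ne_zero h8
        (Finset.prod_ne_zero_iff (s := Finset.univ).2 fun i _ => h9 i)) h6
      exact (div_ne_zero h10 two_ne_zero) h4
    · have h1 := yy_sq R (x := x) (l := l) (s := s) hc hb j
      rw [hj, zero_pow two_ne_zero, xq_core k b c l s x h] at h1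
      exact hroot' _ (hroot _) h1.symm
  have hpol : ∀ j, yq R k b c l s x j ^ 2 =
      pol (S0 j) (rts (fam k b l s)) (xq R k b c l s x j) := fun j => yy_sq R hc hb j
  have hpos : ∀ j, H182.fl2 S0 (Sf R R₀ x.2) (xq R k b c l s x) j =
      (to1 R).pos (toSp c (pt1 R R₀ k b c l s x)) j := by
    intro j
    rw [pos_pt1, H182.fl2]
    rcases h : Sf R R₀ x.2 j <;> simp
  refine
    { far := fun j hj => ?_
      base := ?_
      y := hM
      al := ?_
      inr := inr_pt1 R hd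
      ph := fun f => ?_
      zone := fun j hj => ?_
      sheet := ?_
      std := ?_ }
  · obtain ⟨t, ht⟩ := Sf_true hj
    exact (to1_nk_false R).2 ⟨t, ht⟩
  · have := base_pr (R := to1 R) (k := k) hbX.1
      (z := (toSp c (pt1 R R₀ k b c l s x)).2) (fun a => rfl)
    change pr k (fun j => (toSp c (pt1 R R₀ k b c l s x)).2 (Sum.inr (oj k j).succ))
      ((toSp c (pt1 R R₀ k b c l s x)).2 (Sum.inr 0)) 0 ∈ K
    rw [this]
    exact hbK
  · change -(2 * Real.pi) ≤ -(2 * (Real.pi * s)) ∧ -(2 * (Real.pi * s)) ≤ 0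
    have hp := Real.pi_pos
    constructor
    · nlinarith [hs.2, mul_nonneg hp.le (sub_nonneg.2 hs.2)]
    · nlinarith [mul_nonneg hp.le hs.1]
  · obtain ⟨g, rfl⟩ := (gf1 R).surjective f
    have h2 : (pt1 R R₀ k b c l s x).2.1 (gf1 R g) = x.1.2 g := co1_th R _ _ _ (x.1, zf R R₀ x.2) g
    rw [h2]
    have h3 := hbx g (Set.mem_univ _)
    exact ⟨h3.1.le, h3.2⟩
  · have hj' := (core_iff R).1 hj
    obtain ⟨t, ht⟩ := (to1_nk_false R).1 hj
    rw [pos_pt1_core k b c l s x ht, zf]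
    by_cases h1 : R₀ < ‖x.2 ⟨j, fun k hk => by rw [ht] at hk; cases hk⟩‖
    · rw [if_pos ((Sf_core x.2 ht).2 h1), if_pos h1, norm_inv]
      exact inv_anti₀ hR h1.le
    · have h2 : ¬ Sf R R₀ x.2 j = true := fun h2 => h1 ((Sf_core x.2 ht).1 h2)
      rw [if_neg h2, if_neg h1]
      refine ⟨not_lt.1 h1, ?_⟩
      refine norm_sub_ge_of_notMem_ell hc hε ?_
      have h3 := hcore ⟨j, fun k hk => by rw [ht] at hk; cases hk⟩
      intro h4
      exact h3 (Set.mem_iUnion.2 ⟨(), h4⟩)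
  · refine ⟨gv_sq k b, fun j hj => ?_⟩
    rw [cf_p1 R hc, ← hpos, vq]
    exact H182.flipv_sq hz0 hpol j
  · refine ⟨fun _ g => ?_, fun j => ?_⟩
    · change cw1 c g * (wr (to1 R) (m1 R)).tau (pt1 R R₀ k b c l s x) ⟨(), g⟩ ≠ 0
      refine mul_ne_zero ?_ (Complex.exp_ne_zero _)
      have hc' : (c : ℂ) ≠ 0 := Complex.ofReal_ne_zero.2 hc.ne'
      unfold cw1
      split_ifs <;> simp [hc']
    · rw [sht_pt1, vq]
      exact (H182.flipv_ne hz0 j).2 (hy0 j)

end Conv

/-- **(P3)**, literally -/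
theorem inRegOf : InRegOf := by
  intro k K hK hKc
  obtain ⟨δ, hδ, hgap⟩ := H752.exists_gap hK hKc
  refine ⟨δ / 2, by positivity, fun c hc hcc => ⟨1, one_pos, fun R₀ hR₀ M₀ =>
    ⟨max M₀ (Real.log 4), fun b hb l s hs hM R x hd hbx hcore hroot hUV => ?_⟩⟩⟩
  refine inReg_pt1 R hc hb (hK hb) (fun i => ?_) hs (by linarith) ((le_max_left _ _).trans hM)
    ((le_max_right _ _).trans hM) hd hbx hcore hroot hUV
  have hne := jo_ne k i
  have h1 : δ ≤ ‖b k.castSucc - b (jo k i)‖ := by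
    rcases lt_or_gt_of_ne hne.1 with h2 | h2
    · rw [norm_sub_rev]
      exact hgap b hb _ _ h2 (Or.inr Fin.castSucc_lt_succ.ne)
    · exact hgap b hb _ _ h2 (Or.inr hne.2)
  linarith

end Vale.Agent.P273.H266

end
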