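import Vale.Agent.P273.H266.Node1
import Vale.Agent.P273.H879.Scale

/-!
# P273, NEG: classes and the adapted bases of `H4` at the five divisors
-/

noncomputable section

namespace Vale.Agent.P273.H266

open Set Filter H681 H95 H828

/-- the class of a linear functional of `H4` -/
def cl (φ : H4 →ₗ[ℝ] ℝ) (i : Fin 6) : ℝ := ∑ a, φ (Pi.single a 1) * col4 a i

theorem isCl_col4 (a : Fin 4) : IsCl (col4 a) := by
  unfold IsCl
  fin_cases a <;> norm_num [Fin.sum_univ_succ, col4]

theorem isCl_smul {ξ : Fin 6 → ℝ} (h : IsCl ξ) (c : ℝ) : IsCl (c • ξ) := by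
  unfold IsCl at h ⊢
  have : (∑ k : Fin 6, (-1 : ℝ) ^ (k : ℕ) * (c • ξ) k) = c * ∑ k : Fin 6, (-1 : ℝ) ^ (k : ℕ) * ξ k := by
    rw [Finset.mul_sum]
    refine Finset.sum_congr rfl fun k _ => ?_
    simp only [Pi.smul_apply, smul_eq_mul]; ring
  rw [this, h, mul_zero]

theorem isCl_add {ξ ζ : Fin 6 → ℝ} (h : IsCl ξ) (h' : IsCl ζ) : IsCl (ξ + ζ) := by
  unfold IsCl at h h' ⊢
  have : (∑ k : Fin 6, (-1 : ℝ) ^ (k : ℕ) * (ξ + ζ) k) =
      (∑ k : Fin 6, (-1 : ℝ) ^ (k : ℕ) * ξ k) + ∑ k : Fin 6, (-1 : ℝ) ^ (k : ℕ) * ζ k := by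
    rw [← Finset.sum_add_distrib]
    refine Finset.sum_congr rfl fun k _ => ?_
    simp only [Pi.add_apply]; ring
  rw [this, h, h', add_zero]

theorem isCl_zero : IsCl 0 := by simp [IsCl]

theorem isCl_one : IsCl (fun _ => 1) := by
  unfold IsCl
  norm_num [Fin.sum_univ_succ]

/-- the class of the pair -/
def pc (k : Fin 5) : Fin 6 → ℝ := Pi.single k.castSucc 1 + Pi.single k.succ 1

theorem isCl_pc (k : Fin 5) : IsCl (pc k) := by
  unfold IsCl pc
  simp [mul_add, Finset.sum_add_distrib, Pi.single_apply, pow_succ]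

theorem cl_eq (φ : H4 →ₗ[ℝ] ℝ) : cl φ = ∑ a, φ (Pi.single a 1) • col4 a := by
  funext i
  simp [cl, Finset.sum_apply]

theorem isCl_cl (φ : H4 →ₗ[ℝ] ℝ) : IsCl (cl φ) := by
  rw [cl_eq]
  refine Finset.sum_induction _ IsCl (fun a b ha hb => isCl_add ha hb) isCl_zero fun a _ => ?_
  exact isCl_smul (isCl_col4 a) _

/-- a gauge on a linear combination of classes -/
theorem theta_sum (Θ : Gauge) (j : L) (S : L → Bool) (e : E) (v : L → ℂ) {n : ℕ}
    (ξ : Fin n → Fin 6 → ℝ) (hξ : ∀ a, IsCl (ξ a)) (c : Fin n → ℝ) :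
    Θ.θ j (∑ a, c a • ξ a) S e v = ∑ a, c a • Θ.θ j (ξ a) S e v := by
  classical
  have h0 : Θ.θ j 0 S e v = 0 := by
    have := Θ.smul j 0 0 S e v isCl_zero
    simpa using this
  have key : ∀ s : Finset (Fin n), IsCl (∑ a ∈ s, c a • ξ a) ∧
      Θ.θ j (∑ a ∈ s, c a • ξ a) S e v = ∑ a ∈ s, c a • Θ.θ j (ξ a) S e v := by
    intro s
    induction s using Finset.induction_on with
    | empty => exact ⟨by simpa using isCl_zero, by simpa using h0⟩
    | insert a s ha ih =>
      rw [Finset.sum_insert ha, Finset.sum_insert ha]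
      exact ⟨isCl_add (isCl_smul (hξ a) _) ih.1, by
        rw [Θ.add j _ _ S e v (isCl_smul (hξ a) _) ih.1, ih.2, Θ.smul j _ _ S e v (hξ a)]⟩
  exact (key Finset.univ).2

/-- a linear functional of the `H4`-valued form is the form of its class -/
theorem theta_cl (Θ : Gauge) (φ : H4 →ₗ[ℝ] ℝ) (i : Fin 14) (S : L → Bool) (e : E) (v : L → ℂ)
    (w : E) : φ (Θ.th i S e v w) = Θ.θ (mrk i) (cl φ) S e v w := by
  rw [cl_eq, theta_sum Θ _ S e v _ (fun a => isCl_col4 a)]
  have h1 : Θ.th i S e v w = ∑ a, (Θ.θ (mrk i) (col4 a) S e v w) • (Pi.single a (1 : ℝ) : H4) := by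
    funext b
    simp [Gauge.th, Finset.sum_apply, Pi.single_apply]
  rw [h1, map_sum]
  simp only [map_smul, smul_eq_mul, _root_.sum_apply, _root_.smul_apply]
  exact Finset.sum_congr rfl fun a _ => mul_comm _ _

/-- the fourth basis of `H4`, for the pair `2`, `3` -/
def e2 : H4 ≃ₗ[ℝ] H4 where
  toFun x := ![x 0, x 1 + x 3, x 2 - x 0, x 3]
  invFun x := ![x 0, x 1 - x 3, x 2 + x 0, x 3]
  left_inv x := by funext i; fin_cases i <;> simp
  right_inv x := by funext i; fin_cases i <;> simp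
  map_add' x y := by funext i; fin_cases i <;> simp <;> ring
  map_smul' c x := by funext i; fin_cases i <;> simp <;> ring

/-- the basis adapted to the divisor `k` -/
def bas (k : Fin 5) : Module.Basis (Fin 4) ℝ H4 :=
  if k = 2 then Module.Basis.ofEquivFun e2 else Pi.basisFun ℝ (Fin 4)

/-- the slot of the vanishing vector -/
def bq : Fin 5 → Fin 4 := ![0, 1, 0, 3, 2]
/-- the slot of the dual vector -/
def bp : Fin 5 → Fin 4 := ![1, 0, 1, 2, 3]
/-- the sign -/
def bk : Fin 5 → ℝ := ![1, -1, 1, -1, 1]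

theorem bp_ne_bq (k : Fin 5) : bp k ≠ bq k := by fin_cases k <;> decide

theorem bk_ne (k : Fin 5) : bk k ≠ 0 := by fin_cases k <;> norm_num [bk]

theorem sH_apply (k : Fin 5) (x : H4) : sH k x = x + om (dk k) x • dk k := rfl

theorem bas_of_ne {k : Fin 5} (h : k ≠ 2) (j : Fin 4) : bas k j = Pi.single j 1 := by
  simp [bas, h]

theorem bas_two (j : Fin 4) : bas 2 j = ![![1, 0, 1, 0], ![0, 1, 0, 0], ![0, 0, 1, 0],
    ![0, -1, 0, 1]] j := by
  simp only [bas, if_true]
  rw [Module.Basis.coe_ofEquivFun]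
  funext i
  fin_cases j <;> fin_cases i <;> simp [e2]

theorem sH_bas (k : Fin 5) (j : Fin 4) :
    sH k (bas k j) = bas k j + if j = bp k then bk k • bas k (bq k) else 0 := by
  rw [sH_apply]
  congr 1
  by_cases hk : k = 2
  · subst hk
    rw [bas_two]
    have h3 : bas 2 (bq 2) = ![1, 0, 1, 0] := by rw [bas_two]; rfl
    rw [h3]
    fin_cases j <;> funext i <;> fin_cases i <;> simp [om, dk, bp, bk]
  · rw [bas_of_ne hk, bas_of_ne hk]
    fin_cases k <;> first | exact absurd rfl hk | skip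
    all_goals
      fin_cases j <;> funext i <;> fin_cases i <;>
        simp [om, dk, bp, bk, bq, Fin.ext_iff]

theorem coord_of_ne {k : Fin 5} (h : k ≠ 2) (j : Fin 4) (x : H4) : (bas k).coord j x = x j := by
  simp [bas, h]

theorem coord_two (j : Fin 4) (x : H4) : (bas 2).coord j x = e2 x j := by
  simp [bas]

/-- all coordinate classes except that of the vanishing vector are equal on the pair -/
theorem cl_coord_eq (k : Fin 5) (j : Fin 4) (hj : j ≠ bq k) :
    cl ((bas k).coord j) k.castSucc = cl ((bas k).coord j) k.succ := by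
  by_cases hk : k = 2
  · subst hk
    simp only [cl, coord_two]
    fin_cases j <;> first | exact absurd rfl hj | skip
    all_goals simp [e2, col4, Fin.sum_univ_succ]
  · simp only [cl, coord_of_ne hk]
    fin_cases k <;> first | exact absurd rfl hk | skip
    all_goals
      fin_cases j <;> first | exact absurd rfl hj | skip
    all_goals simp [col4, Fin.sum_univ_succ]

theorem pc_eq (k : Fin 5) : pc k = ![![1, 1, 0, 0, 0, 0], ![0, 1, 1, 0, 0, 0], ![0, 0, 1, 1, 0, 0],
    ![0, 0, 0, 1, 1, 0], ![0, 0, 0, 0, 1, 1]] k := by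
  have h : ∀ i, pc k i = ((if i = k.castSucc ∨ i = k.succ then 1 else 0 : ℕ) : ℝ) := by
    intro i
    have h1 : k.castSucc ≠ k.succ := Fin.castSucc_lt_succ.ne
    by_cases h2 : i = k.castSucc
    · subst h2; simp [pc, Pi.single_apply, h1]
    · by_cases h3 : i = k.succ
      · subst h3; simp [pc, Pi.single_apply, h1.symm]
      · simp [pc, Pi.single_apply, h2, h3]
  have h2 : ∀ (k : Fin 5) (i : Fin 6), (if i = k.castSucc ∨ i = k.succ then 1 else 0 : ℕ) =
      (![![1, 1, 0, 0, 0, 0], ![0, 1, 1, 0, 0, 0], ![0, 0, 1, 1, 0, 0],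
        ![0, 0, 0, 1, 1, 0], ![0, 0, 0, 0, 1, 1]] : Fin 5 → Fin 6 → ℕ) k i := by decide
  funext i
  rw [h, h2]
  fin_cases k <;> fin_cases i <;> simp

/-- the class of the dual coordinate is the class of the pair, up to sign and a constant -/
theorem cl_coord_bp (k : Fin 5) : ∃ a c : ℝ, |a| = 1 ∧
    cl ((bas k).coord (bp k)) = a • pc k + c • (fun _ => 1) := by
  rw [pc_eq]
  by_cases hk : k = 2
  · subst hk
    refine ⟨-1, 1, by simp, ?_⟩
    funext i
    simp only [cl, coord_two]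
    fin_cases i <;> simp [e2, col4, Fin.sum_univ_succ, bp]
  · refine ⟨if k = 1 then -1 else 1, 0, by split_ifs <;> simp, ?_⟩
    funext i
    simp only [cl, coord_of_ne hk]
    fin_cases k <;> first | exact absurd rfl hk | skip
    all_goals
      fin_cases i <;>
        simp [col4, Fin.sum_univ_succ, bp]

end Vale.Agent.P273.H266

end
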