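import Vale.Agent.P273.H95.Wall
import Vale.Agent.P273.H828.AnnDefs

/-!
# P273, NEG: one node, definitions

The family of a region with one neck (`H95.Region1`), written over the configurations of the six
roots: `conf k e z o` has the pair `e - z`, `e + z` at the places `k`, `k + 1`.
Tangent vectors of the family are written with the logarithmic derivatives `Z` of the gaps
(`lv q Z t`); `dE` is their image in the space of roots and marks.
`Asy1` is what NEG needs from the gauge: everything is local at the degenerate points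
(one gap zero) of the family.
-/

noncomputable section

namespace Vale.Agent.P273.H266

open Set Filter MeasureTheory H681 H95 H828
open scoped Topology

/-- the labels of the four other roots -/
def oi (k : Fin 5) (l : Fin 4) : Fin 6 := k.castSucc.succAbove (k.succAbove l)

/-- the pair `e - z`, `e + z` at the places `k`, `k + 1`, the other roots `o` -/
def conf (k : Fin 5) (e z : ℂ) (o : Fin 4 → ℂ) : C6 :=
  Fin.insertNth (α := fun _ => ℂ) k.castSucc (e - z)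
    (Fin.insertNth (α := fun _ => ℂ) k (e + z) o)

variable (R : Region1)

/-- the tangent vector with logarithmic derivatives `Z` of the gaps -/
def lv (q : R.Sp) (Z : Fin (R.n + 1) → ℂ) (t : R.Cm ⊕ Fin 5 → ℂ) : R.Sp :=
  (fun g => q.1 g * Z g, t)

/-- its image in the space of roots and marks (`z ^ 2 = ε`) -/
def dE (k : Fin 5) (q : R.Sp) (z : ℂ) (Z : Fin (R.n + 1) → ℂ) (t : R.Cm ⊕ Fin 5 → ℂ) : E :=
  (conf k (t (Sum.inr 0)) (z * (∑ g, Z g) / 2) (fun l => t (Sum.inr l.succ)),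
    fderiv ℝ R.pos q (lv R q Z t))

/-- the length of the neck: `M = log 1/|ε|` -/
def len (q : R.Sp) : ℝ := -Real.log ‖R.eps q‖

/-- the directions of a region: size and angle of a gap, Euler vector, angle of `ε`, the core
marks and the base coordinates (real or imaginary) -/
inductive Dr (R : Region1) : Type
  | u (f : Fin (R.n + 1))
  | ph (f : Fin (R.n + 1))
  | y
  | al
  | t (c : R.Cm ⊕ Fin 5) (i : Bool)

namespace Dr

variable {R}

/-- logarithmic derivatives of the gaps; `m` is the eliminated gap -/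
def Z (q : R.Sp) (m : Fin (R.n + 1)) : Dr R → Fin (R.n + 1) → ℂ
  | u f => Pi.single m 1 - Pi.single f 1
  | ph f => Pi.single f Complex.I - Pi.single m Complex.I
  | y => fun g => ((Real.log ‖q.1 g‖ / len R q : ℝ) : ℂ)
  | al => Pi.single m Complex.I
  | t _ _ => 0

/-- derivatives of the core marks and of the base coordinates -/
def s : Dr R → R.Cm ⊕ Fin 5 → ℂ
  | t c i => Pi.single c (if i then Complex.I else 1)
  | _ => 0

/-- the cost of a direction -/
def cost (q : R.Sp) : Dr R → ℝ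
  | u f => √(max ‖q.1 f‖ (len R q)⁻¹)
  | ph f => √(max ‖q.1 f‖ (len R q)⁻¹)
  | y => (len R q)⁻¹
  | al => √((len R q)⁻¹)
  | t _ _ => 1

end Dr

/-- the image of a direction -/
def dv (k : Fin 5) (q : R.Sp) (z : ℂ) (m : Fin (R.n + 1)) (d : Dr R) : E :=
  dE R k q z (d.Z q m) d.s

/-- Points of the closed region, before the separation of the marks. -/
def Wok (S : L → Bool) (q : R.Sp) (g : ℂ) (v : L → ℂ) : Prop :=
  (∀ l, R.ctr q ≠ R.oth q l ∧ ‖R.eps q‖ < ‖R.ctr q - R.oth q l‖ ^ 2 / 4096) ∧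
  (∀ l l', R.oth q l = R.oth q l' → l = l') ∧ R.isSheet S q g v ∧
  (∀ j, R.nk j = false →
    if S j then ‖R.eps q * R.pos q j ^ 2‖ < ‖1 - R.ctr q * R.pos q j‖ ^ 2 / 4
    else ‖R.eps q‖ < ‖R.pos q j - R.ctr q‖ ^ 2 / 4) ∧
  (∀ j, R.nk j = true → ∀ l, ‖R.XX q (R.rk j)‖ < ‖R.ctr q - R.oth q l‖ / 8 ∧
    ‖R.YY q (R.rk j)‖ < ‖R.ctr q - R.oth q l‖ / 8)

/-- Two marks coincide (on the family). -/
def Coll (S : L → Bool) (q : R.Sp) (g : ℂ) (v : L → ℂ) (i j : L) : Prop :=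
  (¬ (R.nk i = true ∧ R.nk j = true) ∧
    Same (S i) (R.pos q i) (R.sht q g v i) (S j) (R.pos q j) (R.sht q g v j)) ∨
  (R.nk i = true ∧ R.nk j = true ∧ R.rk i < R.rk j ∧
    ∏ g : Fin (R.n + 1), (if R.rk i < (g : ℕ) ∧ (g : ℕ) ≤ R.rk j then q.1 g else 1) = 1)

/-- Non-degenerate points `q` near the point `q₀`, with the square root `z` of `ε`. -/
def Nb (k : Fin 5) (S : L → Bool) (q₀ : R.Sp) (g₀ : ℂ) (v₀ : L → ℂ) (r : ℝ)
    (q : R.Sp) (g : ℂ) (v : L → ℂ) (z : ℂ) : Prop :=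
  ‖q - q₀‖ < r ∧ ‖g - g₀‖ < r ∧ (∀ j, R.nk j = false → ‖v j - v₀ j‖ < r) ∧
  R.isSheet S q g v ∧ z ^ 2 = R.eps q ∧ z ≠ 0 ∧ z.im ≤ 0 ∧ (∀ g, ‖q.1 g‖ ≤ 1) ∧
  (∀ j, R.sht q g v j ≠ 0) ∧ conf k (R.ctr q) z (R.oth q) ∈ XX

/-- Degenerate points of the closed region, over the divisor `XD k`. -/
def Deg (k : Fin 5) (S : L → Bool) (q₀ : R.Sp) (g₀ : ℂ) (v₀ : L → ℂ) : Prop :=
  R.eps q₀ = 0 ∧ (∀ g, ‖q₀.1 g‖ ≤ 1) ∧ conf k (R.ctr q₀) 0 (R.oth q₀) ∈ XD k ∧ Wok R S q₀ g₀ v₀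

/-- **WALL ASY1.** What NEG needs from the gauge at one node. -/
structure Asy1 (Θ : Gauge) : Prop where
  /-- bounds of the legs near a degenerate point where the marks of the same type are separated and
  no mark is at one of the four other roots: (1) all classes, (2) classes with equal values on the
  pair, (3) the class of the pair -/
  leg : ∀ (k : Fin 5) (R : Region1) (S : L → Bool), (∀ j, S j = true → R.nk j = false) →
    ∀ q₀ g₀ v₀, Deg R k S q₀ g₀ v₀ → R.ok S q₀ g₀ v₀ → ∀ A₀ : ℝ, ∀ ξ, IsCl ξ → ∃ r > 0, ∃ C : ℝ,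
    ∀ q g v z, Nb R k S q₀ g₀ v₀ r q g v z → ∀ m, (∀ g, ‖q.1 m‖ ≤ A₀ * ‖q.1 g‖) →
    ∀ (j : L) (d : Dr R),
      |Θ.θ j ξ S (conf k (R.ctr q) z (R.oth q), R.pos q) (R.sht q g v) (dv R k q z m d)| ≤
        C * √(len R q) * d.cost q ∧
      (ξ k.castSucc = ξ k.succ →
        |Θ.θ j ξ S (conf k (R.ctr q) z (R.oth q), R.pos q) (R.sht q g v) (dv R k q z m d)| ≤
          C * d.cost q) ∧
      (ξ = Pi.single k.castSucc 1 + Pi.single k.succ 1 →
        |Θ.θ j ξ S (conf k (R.ctr q) z (R.oth q), R.pos q) (R.sht q g v) (dv R k q z m d)| ≤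
          C * (√(len R q))⁻¹ * d.cost q)
  /-- no form near the four other roots -/
  root : ∀ (k : Fin 5) (R : Region1) (S : L → Bool), (∀ j, S j = true → R.nk j = false) →
    ∀ q₀ g₀ v₀, Deg R k S q₀ g₀ v₀ → ∀ j, R.nk j = false → v₀ j = 0 → ∃ r > 0,
    ∀ q g v z, Nb R k S q₀ g₀ v₀ r q g v z → ∀ ξ, IsCl ξ →
      Θ.θ j ξ S (conf k (R.ctr q) z (R.oth q), R.pos q) (R.sht q g v) = 0
  /-- marks of the same type that coincide have the same form -/
  col : ∀ (k : Fin 5) (R : Region1) (S : L → Bool), (∀ j, S j = true → R.nk j = false) →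
    ∀ q₀ g₀ v₀, Deg R k S q₀ g₀ v₀ → ∀ i j : L, i ≠ j → i.2 = j.2 → Coll R S q₀ g₀ v₀ i j →
    ∃ r > 0, ∀ q g v z, Nb R k S q₀ g₀ v₀ r q g v z → ∀ ξ, IsCl ξ →
      Θ.θ i ξ S (conf k (R.ctr q) z (R.oth q), R.pos q) (R.sht q g v) =
        Θ.θ j ξ S (conf k (R.ctr q) z (R.oth q), R.pos q) (R.sht q g v)

/-- The value of one sheet of the 30-form on directions `w`. -/
def wv (X : Ext) (Θ : Gauge) (T : MT) (k : Fin 5) (S : L → Bool) (q : R.Sp) (g : ℂ) (v : L → ℂ)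
    (z : ℂ) (m : Fin (R.n + 1)) (w : Fin (16 + 14) → Dr R) : ℝ :=
  H973.wedgeT (GR X.G S (conf k (R.ctr q) z (R.oth q), R.pos q) (R.sht q g v)) T
    (fun i => Θ.th i S (conf k (R.ctr q) z (R.oth q), R.pos q) (R.sht q g v))
    (fun i => dv R k q z m (w i))

/-- **TARGET 1**, local: near every degenerate point of the closed region. -/
def Loc1 (X : Ext) (Θ : Gauge) (T : MT) (k : Fin 5) : Prop :=
  ∀ (R : Region1) (S : L → Bool), (∀ j, S j = true → R.nk j = false) →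
    ∀ q₀ g₀ v₀, Deg R k S q₀ g₀ v₀ → ∀ A₀ : ℝ, ∃ r > 0, ∃ C : ℝ,
    ∀ q g v z, Nb R k S q₀ g₀ v₀ r q g v z → ∀ m, (∀ g, ‖q.1 m‖ ≤ A₀ * ‖q.1 g‖) →
    ∀ w : Fin (16 + 14) → Dr R,
      |wv R X Θ T k S q g v z m w| ≤ C * ∏ i, (w i).cost q

end Vale.Agent.P273.H266

end
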