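import Vale.Agent.P273.H266.Wt

/-!
A continuous multilinear form fixed by a transvection is bounded along the one-parameter group that
scales the vanishing class and the dual class.
-/

namespace Vale.Agent.P273.H266

open Finset

section General

variable {ι : Type*} [Fintype ι] [DecidableEq ι] {H : Type*} [AddCommGroup H] [Module ℝ H]

theorem form_sum' (T : MultilinearMap ℝ (fun _ : ι => H) ℝ) (B : ι → Fin 4 → H) (s : H → H)
    {p q : Fin 4} {c : ℝ} (hs : ∀ i k, s (B i k) = B i k + if k = p then c • B i q else 0)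
    (τ : ι → Fin 4) :
    T (fun i => s (B i (τ i))) = ∑ A ∈ (Finset.univ.filter fun i => τ i = p).powerset,
      c ^ A.card * T (fun i => B i (ch q A τ i)) := by
  have h1 : (fun i => s (B i (τ i))) = (fun i => if τ i = p then c • B i q else 0) +
      fun i => B i (τ i) := by
    funext i
    rw [hs, Pi.add_apply, add_comm]
  rw [h1, T.map_add_univ]
  symm
  refine Finset.sum_subset_zero_on_sdiff (Finset.subset_univ _) ?_ ?_
  · intro A hA
    have hA2 : ¬ A ⊆ Finset.univ.filter fun i => τ i = p := by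
      intro h
      exact (Finset.mem_sdiff.1 hA).2 (Finset.mem_powerset.2 h)
    obtain ⟨i, hi, hi2⟩ := Finset.not_subset.1 hA2
    refine T.map_coord_zero i ?_
    have : τ i ≠ p := fun h => hi2 (by simp [h])
    simp [Finset.piecewise, hi, this]
  · intro A hA
    have hA2 := Finset.mem_powerset.1 hA
    have h2 : A.piecewise (fun i => if τ i = p then c • B i q else 0) (fun i => B i (τ i)) =
        A.piecewise (fun i => (fun _ => c) i • B i (ch q A τ i)) (fun i => B i (ch q A τ i)) := by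
      funext i
      by_cases hi : i ∈ A
      · have : τ i = p := by simpa using hA2 hi
        simp [Finset.piecewise, hi, this, ch]
      · simp [Finset.piecewise, hi, ch]
    rw [h2, T.map_piecewise_smul, Finset.prod_const, smul_eq_mul]

theorem weights_of_fixed_form' (T : MultilinearMap ℝ (fun _ : ι => H) ℝ) (B : ι → Fin 4 → H)
    (s : H → H) {p q : Fin 4} (hpq : p ≠ q) {c : ℝ} (hc : c ≠ 0)
    (hs : ∀ i k, s (B i k) = B i k + if k = p then c • B i q else 0)
    (hT : ∀ x : ι → H, T (fun i => s (x i)) = T x) {τ : ι → Fin 4}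
    (hτ : (Finset.univ.filter fun i => τ i = p).card < (Finset.univ.filter fun i => τ i = q).card) :
    T (fun i => B i (τ i)) = 0 := by
  refine weights_of_fixed (T := fun τ => T (fun i => B i (τ i))) hpq hc (fun τ => ?_) hτ
  rw [← form_sum' T B s hs τ]
  exact hT _

end General

section Bound

variable {ι : Type*} [Fintype ι] {H G : Type*} [NormedAddCommGroup H]
  [NormedSpace ℝ H] [NormedAddCommGroup G] [NormedSpace ℝ G]

/-- The complementary projection. -/
def prj (dl ep : H) (al be : H →L[ℝ] ℝ) (x : H) : H := x - be x • dl - al x • ep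

/-- The four parts of a vector. -/
def part (dl ep : H) (al be : H →L[ℝ] ℝ) (x : H) : Fin 4 → H :=
  ![be x • dl, al x • ep, prj dl ep al be x, 0]

theorem norm_part_sum_le (dl ep : H) (al be : H →L[ℝ] ℝ) (x : H) :
    ∑ k, ‖part dl ep al be x k‖ ≤ (1 + 2 * (‖be‖ * ‖dl‖ + ‖al‖ * ‖ep‖)) * ‖x‖ := by
  rw [Fin.sum_univ_four]
  simp only [part, prj, Matrix.cons_val_zero, Matrix.cons_val_one, Matrix.cons_val]
  have h1 : ‖be x • dl‖ ≤ ‖be‖ * ‖dl‖ * ‖x‖ := by
    rw [norm_smul]
    nlinarith [be.le_opNorm x, norm_nonneg dl, norm_nonneg x, norm_nonneg (be x)]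
  have h2 : ‖al x • ep‖ ≤ ‖al‖ * ‖ep‖ * ‖x‖ := by
    rw [norm_smul]
    nlinarith [al.le_opNorm x, norm_nonneg ep, norm_nonneg x, norm_nonneg (al x)]
  have h3 : ‖x - be x • dl - al x • ep‖ ≤ ‖x‖ + ‖be x • dl‖ + ‖al x • ep‖ :=
    (norm_sub_le _ _).trans (by gcongr; exact norm_sub_le _ _)
  rw [norm_zero]
  nlinarith

/-- **Scaling bound.** A continuous multilinear form fixed by the transvection `x ↦ x + k α(x) δ` is
bounded along `g_d x = P x + d⁻¹ β(x) δ + d α(x) ε`, uniformly in `0 < d ≤ 1`. -/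
theorem scale_bound (T : ContinuousMultilinearMap ℝ (fun _ : ι => H) G) (dl ep : H)
    (al be : H →L[ℝ] ℝ) (h1 : al dl = 0) (h2 : al ep = 1) {k : ℝ}
    (hk : k ≠ 0) (hT : ∀ x : ι → H, T (fun j => x j + (k * al (x j)) • dl) = T x)
    {d : ℝ} (hd : 0 < d) (hd1 : d ≤ 1) (x : ι → H) :
    ‖T (fun j => prj dl ep al be (x j) + (d⁻¹ * be (x j)) • dl + (d * al (x j)) • ep)‖ ≤
      (1 + 2 * (‖be‖ * ‖dl‖ + ‖al‖ * ‖ep‖)) ^ Fintype.card ι * ‖T‖ * ∏ j, ‖x j‖ := by
  classical
  let m : Fin 4 → ℝ := ![d⁻¹, d, 1, 1]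
  let Bv : ι → Fin 4 → H := fun j => part dl ep al be (x j)
  let B0 : ι → Fin 4 → H := fun j => ![dl, ep, prj dl ep al be (x j), 0]
  let co : ι → Fin 4 → ℝ := fun j => ![be (x j), al (x j), 1, 1]
  have hBv : ∀ j l, Bv j l = co j l • B0 j l := by
    intro j l
    fin_cases l <;> simp [Bv, co, B0, part]
  have hg : (fun j => prj dl ep al be (x j) + (d⁻¹ * be (x j)) • dl + (d * al (x j)) • ep) =
      fun j => ∑ l, m l • Bv j l := by
    funext j
    rw [Fin.sum_univ_four]
    simp only [m, Bv, part, Matrix.cons_val_zero, Matrix.cons_val_one, Matrix.cons_val, smul_zero,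
      add_zero, one_smul, smul_smul]
    abel
  have hap : ∀ y, al (prj dl ep al be y) = 0 := by
    intro y
    simp [prj, h1, h2]
  have hz : ∀ κ : ι → Fin 4, (Finset.univ.filter fun i => κ i = 1).card <
      (Finset.univ.filter fun i => κ i = 0).card → T (fun j => B0 j (κ j)) = 0 := by
    intro κ hκ
    refine SeparatingDual.eq_zero_of_forall_dual_eq_zero (R := ℝ) fun φ => ?_
    have := weights_of_fixed_form' (p := 1) (q := 0)
      ((φ : G →ₗ[ℝ] ℝ).compMultilinearMap T.toMultilinearMap) B0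
      (fun y => y + (k * al y) • dl) (by decide) hk ?_ ?_ hκ
    · simpa using this
    · intro i l
      fin_cases l <;> simp [B0, h1, h2, hap]
    · intro y
      simp only [LinearMap.compMultilinearMap_apply]
      congr 1
      exact hT y
  rw [hg]
  have hs : T (fun j => ∑ l, m l • Bv j l) =
      ∑ κ : ι → Fin 4, (∏ j, m (κ j)) • T (fun j => Bv j (κ j)) := by
    rw [T.map_sum]
    refine Finset.sum_congr rfl fun κ _ => ?_
    exact T.map_smul_univ _ _
  rw [hs]
  have hm : ∀ κ : ι → Fin 4, ‖(∏ j, m (κ j)) • T (fun j => Bv j (κ j))‖ ≤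
      ‖T‖ * ∏ j, ‖Bv j (κ j)‖ := by
    intro κ
    by_cases hκ : (Finset.univ.filter fun i => κ i = 1).card <
      (Finset.univ.filter fun i => κ i = 0).card
    · have h5 : T (fun j => Bv j (κ j)) = 0 := by
        have : (fun j => Bv j (κ j)) = fun j => co j (κ j) • B0 j (κ j) := by
          funext j
          exact hBv j (κ j)
        rw [this, T.map_smul_univ, hz κ hκ, smul_zero]
      rw [h5, smul_zero, norm_zero]
      positivity
    · have hκ2 := not_lt.1 hκ
      have h6 : ∏ j, m (κ j) = d ^ (Finset.univ.filter fun i => κ i = 1).card *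
          (d⁻¹) ^ (Finset.univ.filter fun i => κ i = 0).card := by
        have h7 : ∀ l : Fin 4, m l = (if l = 1 then d else 1) * (if l = 0 then d⁻¹ else 1) := by
          intro l
          fin_cases l <;> simp [m]
        simp_rw [h7]
        rw [Finset.prod_mul_distrib, Finset.prod_ite, Finset.prod_ite]
        simp
      have h8 : |∏ j, m (κ j)| ≤ 1 := by
        rw [h6, abs_of_pos (by positivity), inv_pow, ← div_eq_mul_inv, div_le_one (by positivity)]
        exact pow_le_pow_of_le_one hd.le hd1 hκ2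
      rw [norm_smul, Real.norm_eq_abs]
      calc |∏ j, m (κ j)| * ‖T (fun j => Bv j (κ j))‖ ≤ 1 * ‖T (fun j => Bv j (κ j))‖ := by gcongr
        _ ≤ _ := by rw [one_mul]; exact T.le_opNorm _
  calc ‖∑ κ : ι → Fin 4, (∏ j, m (κ j)) • T (fun j => Bv j (κ j))‖
      ≤ ∑ κ : ι → Fin 4, ‖T‖ * ∏ j, ‖Bv j (κ j)‖ :=
        (norm_sum_le _ _).trans (Finset.sum_le_sum fun κ _ => hm κ)
    _ = ‖T‖ * ∏ j, ∑ l, ‖Bv j l‖ := by
        rw [← Finset.mul_sum, Finset.prod_univ_sum]
        simp [Fintype.piFinset_univ]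
    _ ≤ ‖T‖ * ∏ j, (1 + 2 * (‖be‖ * ‖dl‖ + ‖al‖ * ‖ep‖)) * ‖x j‖ := by
        refine mul_le_mul_of_nonneg_left (Finset.prod_le_prod
          (fun j _ => Finset.sum_nonneg fun l _ => norm_nonneg (Bv j l)) fun j _ => ?_)
          (norm_nonneg T)
        exact norm_part_sum_le dl ep al be (x j)
    _ = _ := by
        rw [Finset.prod_mul_distrib, Finset.prod_const, Finset.card_univ]
        ring

end Bound

end Vale.Agent.P273.H266
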