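import Mathlib

/-!
Weights of the tensors fixed by a transvection: in an adapted basis only the components with at
least as many factors equal to the vanishing class as to the dual class are nonzero.
-/

namespace Vale.Agent.P273.H266

open Finset

section Up

variable {S : Type*} [Fintype S] [DecidableEq S]

/-- The raising operator on functions on finite sets. -/
def up (F : Finset S → ℝ) (A : Finset S) : ℝ := ∑ j ∈ A, F (A.erase j)

/-- The lowering operator. -/
def dn (F : Finset S → ℝ) (A : Finset S) : ℝ := ∑ j ∈ Aᶜ, F (insert j A)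

theorem adj (F H : Finset S → ℝ) : ∑ A, up F A * H A = ∑ A, F A * dn H A := by
  unfold up dn
  simp_rw [Finset.sum_mul, Finset.mul_sum]
  rw [Finset.sum_sigma', Finset.sum_sigma']
  refine Finset.sum_bij' (fun p _ => ⟨p.1.erase p.2, p.2⟩) (fun p _ => ⟨insert p.2 p.1, p.2⟩)
    ?_ ?_ ?_ ?_ ?_
  · rintro ⟨A, j⟩ h
    simp
  · rintro ⟨A, j⟩ h
    simp
  · rintro ⟨A, j⟩ h
    simp only [mem_sigma, mem_univ, true_and] at h
    simp [Finset.insert_erase h]
  · rintro ⟨A, j⟩ h
    simp only [mem_sigma, mem_univ, true_and, mem_compl] at h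
    simp [Finset.erase_insert h]
  · rintro ⟨A, j⟩ h
    simp only [mem_sigma, mem_univ, true_and] at h
    simp [Finset.insert_erase h]

theorem comm (F : Finset S → ℝ) (A : Finset S) :
    dn (up F) A = up (dn F) A + ((Fintype.card S : ℝ) - 2 * A.card) * F A := by
  have h1 : dn (up F) A = ∑ j ∈ Aᶜ, (F A + ∑ k ∈ A, F (insert j (A.erase k))) := by
    unfold dn up
    refine Finset.sum_congr rfl fun j hj => ?_
    have hj' : j ∉ A := by simpa using hj
    rw [Finset.sum_insert hj', Finset.erase_insert hj']
    congr 1
    refine Finset.sum_congr rfl fun k hk => ?_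
    rw [Finset.erase_insert_of_ne]
    rintro rfl
    exact hj' hk
  have h2 : up (dn F) A = ∑ k ∈ A, (F A + ∑ j ∈ Aᶜ, F (insert j (A.erase k))) := by
    unfold dn up
    refine Finset.sum_congr rfl fun k hk => ?_
    have : (A.erase k)ᶜ = insert k Aᶜ := by
      ext x
      simp only [mem_compl, mem_erase, mem_insert]
      tauto
    show ∑ j ∈ (A.erase k)ᶜ, F (insert j (A.erase k)) = _
    rw [this, Finset.sum_insert (by simpa using hk), Finset.insert_erase hk]
  rw [h1, h2, Finset.sum_add_distrib, Finset.sum_add_distrib, Finset.sum_const, Finset.sum_const,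
    Finset.sum_comm, Finset.card_compl]
  have hc : A.card ≤ Fintype.card S := Finset.card_le_univ A
  simp only [nsmul_eq_mul]
  push_cast [Nat.cast_sub hc]
  ring

/-- The raising operator is injective below the middle. -/
theorem up_injective {F : Finset S → ℝ} {a : ℕ} (ha : 2 * a < Fintype.card S)
    (hs : ∀ A, A.card ≠ a → F A = 0) (hu : ∀ A, A.card = a + 1 → up F A = 0) : F = 0 := by
  have hu' : ∀ A, up F A = 0 := by
    intro A
    by_cases h : A.card = a + 1
    · exact hu A h
    · refine Finset.sum_eq_zero fun j hj => hs _ ?_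
      rw [Finset.card_erase_of_mem hj]
      have := Finset.card_pos.2 ⟨j, hj⟩
      omega
  have h1 : ∑ A, up F A * up F A = 0 := by simp [hu']
  rw [adj F (up F)] at h1
  simp_rw [comm, mul_add] at h1
  rw [Finset.sum_add_distrib] at h1
  have h2 : ∑ A, F A * up (dn F) A = ∑ A, dn F A * dn F A := by
    have := adj (dn F) F
    simp_rw [mul_comm (F _)]
    rw [this]
  rw [h2] at h1
  have h3 : 0 ≤ ∑ A, dn F A * dn F A := Finset.sum_nonneg fun A _ => mul_self_nonneg _
  have h4 : ∀ A, 0 ≤ F A * (((Fintype.card S : ℝ) - 2 * A.card) * F A) := by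
    intro A
    by_cases h : A.card = a
    · have : (0 : ℝ) < (Fintype.card S : ℝ) - 2 * A.card := by
        rw [h]
        have : (2 * a : ℝ) < Fintype.card S := by exact_mod_cast ha
        linarith
      nlinarith [mul_self_nonneg (F A), mul_nonneg this.le (mul_self_nonneg (F A))]
    · simp [hs A h]
  have h5 : ∑ A, F A * (((Fintype.card S : ℝ) - 2 * A.card) * F A) = 0 := by
    have := Finset.sum_nonneg fun A (_ : A ∈ Finset.univ) => h4 A
    linarith
  have h6 := (Finset.sum_eq_zero_iff_of_nonneg fun A _ => h4 A).1 h5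
  funext A
  by_cases h : A.card = a
  · have h7 := h6 A (Finset.mem_univ _)
    have : (0 : ℝ) < (Fintype.card S : ℝ) - 2 * A.card := by
      rw [h]
      have : (2 * a : ℝ) < Fintype.card S := by exact_mod_cast ha
      linarith
    have h8 : ((Fintype.card S : ℝ) - 2 * A.card) * (F A * F A) = 0 := by linarith
    rcases mul_eq_zero.1 h8 with h9 | h9
    · exact absurd h9 this.ne'
    · simpa using mul_self_eq_zero.1 h9
  · simpa using hs A h

/-- Functions fixed by the transvection vanish below the middle. -/
theorem core {Φ : Finset S → ℝ} {c : ℝ} (hc : c ≠ 0)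
    (h : ∀ B, ∑ A ∈ B.powerset, c ^ A.card * Φ (B \ A) = Φ B) (a : ℕ) :
    2 * a < Fintype.card S → ∀ B, B.card = a → Φ B = 0 := by
  induction a using Nat.strong_induction_on with
  | _ a ih =>
    intro ha
    have key : (fun B => if B.card = a then Φ B else 0) = (0 : Finset S → ℝ) := by
      refine up_injective ha (fun A hA => if_neg hA) fun A' hA' => ?_
      have h1 := h A'
      have h2 : ∑ A ∈ A'.powerset, c ^ A.card * Φ (A' \ A) =
          Φ A' + ∑ A ∈ A'.powersetCard 1, c * Φ (A' \ A) := by
        have hsub : insert ∅ (A'.powersetCard 1) ⊆ A'.powerset := by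
          intro A hA
          rcases Finset.mem_insert.1 hA with rfl | hA
          · simp
          · exact Finset.mem_powerset.2 (Finset.mem_powersetCard.1 hA).1
        rw [← Finset.sum_subset hsub, Finset.sum_insert (by simp [Finset.mem_powersetCard])]
        · simp only [Finset.card_empty, pow_zero, one_mul, Finset.sdiff_empty]
          congr 1
          refine Finset.sum_congr rfl fun A hA => ?_
          rw [(Finset.mem_powersetCard.1 hA).2, pow_one]
        · intro A hA hA2
          have hAs := Finset.mem_powerset.1 hA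
          have h3 : A.card ≠ 0 := by
            intro h0
            exact hA2 (Finset.mem_insert.2 (Or.inl (Finset.card_eq_zero.1 h0)))
          have h4 : A.card ≠ 1 := by
            intro h0
            exact hA2 (Finset.mem_insert.2 (Or.inr (Finset.mem_powersetCard.2 ⟨hAs, h0⟩)))
          have h5 : (A' \ A).card = A'.card - A.card := Finset.card_sdiff_of_subset hAs
          have h6 := Finset.card_le_card hAs
          rw [ih (A' \ A).card (by omega) (by omega) _ rfl, mul_zero]
      rw [h2] at h1
      have h3 : ∑ A ∈ A'.powersetCard 1, c * Φ (A' \ A) = 0 := by linarith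
      rw [Finset.powersetCard_one, Finset.sum_map, ← Finset.mul_sum] at h3
      have h4 := (mul_eq_zero.1 h3).resolve_left hc
      rw [up, ← h4]
      refine Finset.sum_congr rfl fun j hj => ?_
      rw [if_pos (by rw [Finset.card_erase_of_mem hj, hA']; rfl)]
      congr 1
      ext x
      simp [and_comm]
    intro B hB
    have := congrFun key B
    simpa [hB] using this

end Up

section Tensor

variable {ι : Type*} [Fintype ι] [DecidableEq ι]

/-- The index `τ` with the places in `A` changed to `q`. -/
def ch (q : Fin 4) (A : Finset ι) (τ : ι → Fin 4) : ι → Fin 4 := fun i => if i ∈ A then q else τ i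

/-- **Weights of fixed tensors.** If the components `T τ` are fixed by the transvection that changes
places `p` into places `q` (with the factor `c`), then the components with more places `q` than
places `p` are zero. -/
theorem weights_of_fixed {T : (ι → Fin 4) → ℝ} {p q : Fin 4} (hpq : p ≠ q) {c : ℝ} (hc : c ≠ 0)
    (hT : ∀ τ, ∑ A ∈ (Finset.univ.filter fun i => τ i = p).powerset, c ^ A.card * T (ch q A τ) =
      T τ) {τ : ι → Fin 4}
    (hτ : (Finset.univ.filter fun i => τ i = p).card < (Finset.univ.filter fun i => τ i = q).card) :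
    T τ = 0 := by
  classical
  let S := {i : ι // τ i = p ∨ τ i = q}
  let emb : S ↪ ι := ⟨Subtype.val, Subtype.val_injective⟩
  let tb : Finset S → ι → Fin 4 := fun B i => if h : τ i = p ∨ τ i = q then
    (if (⟨i, h⟩ : S) ∈ B then p else q) else τ i
  have hz : ∀ B : Finset S, (Finset.univ.filter fun i => tb B i = p) = B.map emb := by
    intro B
    ext i
    simp only [mem_filter, mem_univ, true_and, mem_map, tb, emb, Function.Embedding.coeFn_mk]
    constructor
    · intro h
      by_cases h1 : τ i = p ∨ τ i = q
      · rw [dif_pos h1] at h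
        by_cases h2 : (⟨i, h1⟩ : S) ∈ B
        · exact ⟨_, h2, rfl⟩
        · rw [if_neg h2] at h
          exact absurd h.symm hpq
      · rw [dif_neg h1] at h
        exact absurd (Or.inl h) h1
    · rintro ⟨⟨j, hj⟩, hjB, rfl⟩
      rw [dif_pos hj, if_pos hjB]
  have hΦ : ∀ B : Finset S, ∑ A ∈ B.powerset, c ^ A.card * T (tb (B \ A)) = T (tb B) := by
    intro B
    have h1 := hT (tb B)
    rw [hz] at h1
    rw [← h1]
    refine Finset.sum_bij' (fun A _ => A.map emb) (fun A _ => A.subtype fun i => τ i = p ∨ τ i = q)
      ?_ ?_ ?_ ?_ ?_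
    · intro A hA
      exact Finset.mem_powerset.2 (Finset.map_subset_map.2 (Finset.mem_powerset.1 hA))
    · intro A hA
      refine Finset.mem_powerset.2 fun x hx => ?_
      have h2 := Finset.mem_powerset.1 hA (Finset.mem_subtype.1 hx)
      obtain ⟨y, hy, hxy⟩ := Finset.mem_map.1 h2
      have : y = x := Subtype.ext hxy
      rwa [← this]
    · intro A hA
      ext x
      simp [emb]
    · intro A hA
      ext i
      simp only [mem_map, emb, Function.Embedding.coeFn_mk]
      constructor
      · rintro ⟨x, hx, rfl⟩
        exact Finset.mem_subtype.1 hx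
      · intro hi
        have h2 := Finset.mem_powerset.1 hA hi
        obtain ⟨y, hy, hxy⟩ := Finset.mem_map.1 h2
        exact ⟨y, by rw [← hxy] at hi; exact Finset.mem_subtype.2 hi, hxy⟩
    · intro A hA
      have hAB := Finset.mem_powerset.1 hA
      rw [Finset.card_map]
      congr 2
      funext i
      simp only [ch, tb, mem_map, emb, Function.Embedding.coeFn_mk, mem_sdiff]
      by_cases h1 : τ i = p ∨ τ i = q
      · rw [dif_pos h1, dif_pos h1]
        by_cases h2 : (⟨i, h1⟩ : S) ∈ A
        · have h3 : ∃ a : S, a ∈ A ∧ (a : ι) = i := ⟨_, h2, rfl⟩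
          rw [if_pos h3]
          simp [h2]
        · have h3 : ¬ ∃ a : S, a ∈ A ∧ (a : ι) = i := by
            rintro ⟨a, ha, rfl⟩
            exact h2 ha
          rw [if_neg h3]
          simp [h2]
      · rw [dif_neg h1, dif_neg h1]
        have h3 : ¬ ∃ a : S, a ∈ A ∧ (a : ι) = i := by
          rintro ⟨a, ha, rfl⟩
          exact h1 a.2
        rw [if_neg h3]
  have hcard : Fintype.card S = (Finset.univ.filter fun i => τ i = p).card +
      (Finset.univ.filter fun i => τ i = q).card := by
    rw [Fintype.card_subtype, Finset.filter_or, Finset.card_union_of_disjoint]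
    rw [Finset.disjoint_filter]
    intro i _ h1 h2
    exact hpq (h1.symm.trans h2)
  let B0 : Finset S := Finset.univ.filter fun x => τ x.1 = p
  have hB0 : tb B0 = τ := by
    funext i
    simp only [tb, B0, mem_filter, mem_univ, true_and]
    by_cases h1 : τ i = p ∨ τ i = q
    · rw [dif_pos h1]
      by_cases h2 : τ i = p
      · rw [if_pos h2, h2]
      · rw [if_neg h2]
        exact (h1.resolve_left h2).symm
    · rw [dif_neg h1]
  have hB1 : B0.card = (Finset.univ.filter fun i => τ i = p).card := by
    rw [← Finset.card_map emb, ← hz B0, hB0]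
  have := core (Φ := fun B => T (tb B)) hc hΦ B0.card (by rw [hcard, hB1]; omega) B0 rfl
  rwa [hB0] at this

end Tensor

section Form

variable {ι : Type*} [Fintype ι] [DecidableEq ι] {H : Type*} [AddCommGroup H] [Module ℝ H]

theorem form_sum (T : MultilinearMap ℝ (fun _ : ι => H) ℝ) (b : Fin 4 → H) (s : H → H) {p q : Fin 4}
    {c : ℝ} (hs : ∀ k, s (b k) = b k + if k = p then c • b q else 0) (τ : ι → Fin 4) :
    T (fun i => s (b (τ i))) = ∑ A ∈ (Finset.univ.filter fun i => τ i = p).powerset,
      c ^ A.card * T (fun i => b (ch q A τ i)) := by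
  have h1 : (fun i => s (b (τ i))) = (fun i => if τ i = p then c • b q else 0) +
      fun i => b (τ i) := by
    funext i
    rw [hs, Pi.add_apply, add_comm]
  rw [h1, T.map_add_univ]
  symm
  refine Finset.sum_subset_zero_on_sdiff (Finset.subset_univ _) ?_ ?_
  · intro A hA
    have hA2 : ¬ A ⊆ Finset.univ.filter fun i => τ i = p := by
      intro h
      exact (Finset.mem_sdiff.1 hA).2 (Finset.mem_powerset.2 h)
    obtain ⟨i, hi, hi2⟩ := Finset.not_subset.1 hA2
    refine T.map_coord_zero i ?_
    have : τ i ≠ p := fun h => hi2 (by simp [h])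
    simp [Finset.piecewise, hi, this]
  · intro A hA
    have hA2 := Finset.mem_powerset.1 hA
    have h2 : A.piecewise (fun i => if τ i = p then c • b q else 0) (fun i => b (τ i)) =
        A.piecewise (fun i => (fun _ => c) i • b (ch q A τ i)) (fun i => b (ch q A τ i)) := by
      funext i
      by_cases hi : i ∈ A
      · have : τ i = p := by simpa using hA2 hi
        simp [Finset.piecewise, hi, this, ch]
      · simp [Finset.piecewise, hi, ch]
    rw [h2, T.map_piecewise_smul, Finset.prod_const, smul_eq_mul]

/-- **Weights of fixed forms.** -/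
theorem weights_of_fixed_form (T : MultilinearMap ℝ (fun _ : ι => H) ℝ) (b : Fin 4 → H)
    (s : H → H) {p q : Fin 4} (hpq : p ≠ q) {c : ℝ} (hc : c ≠ 0)
    (hs : ∀ k, s (b k) = b k + if k = p then c • b q else 0)
    (hT : ∀ x : ι → H, T (fun i => s (x i)) = T x) {τ : ι → Fin 4}
    (hτ : (Finset.univ.filter fun i => τ i = p).card < (Finset.univ.filter fun i => τ i = q).card) :
    T (fun i => b (τ i)) = 0 := by
  refine weights_of_fixed (T := fun τ => T (fun i => b (τ i))) hpq hc (fun τ => ?_) hτ
  rw [← form_sum T b s hs τ]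
  exact hT _

/-- The scaled frame: `q` is multiplied by `r` and `p` by `r⁻¹`. -/
noncomputable def scl (p q : Fin 4) (r : ℝ) (b : Fin 4 → H) (k : Fin 4) : H :=
  (if k = q then r else if k = p then r⁻¹ else 1) • b k

theorem form_scl (T : MultilinearMap ℝ (fun _ : ι => H) ℝ) (b : Fin 4 → H) {p q : Fin 4}
    (hpq : p ≠ q) (r : ℝ) (τ : ι → Fin 4) :
    T (fun i => scl p q r b (τ i)) = r ^ (Finset.univ.filter fun i => τ i = q).card *
      (r⁻¹) ^ (Finset.univ.filter fun i => τ i = p).card * T (fun i => b (τ i)) := by
  have h1 : (fun i => scl p q r b (τ i)) =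
      fun i => (if τ i = q then r else if τ i = p then r⁻¹ else 1) • b (τ i) := rfl
  rw [h1, T.map_smul_univ, smul_eq_mul]
  congr 1
  have h2 : ∀ i, (if τ i = q then r else if τ i = p then r⁻¹ else (1 : ℝ)) =
      (if τ i = q then r else 1) * (if τ i = p then r⁻¹ else 1) := by
    intro i
    by_cases h3 : τ i = q
    · have : τ i ≠ p := fun h => hpq (h.symm.trans h3)
      simp [h3, hpq.symm]
    · simp [h3]
  simp_rw [h2]
  rw [Finset.prod_mul_distrib, Finset.prod_ite, Finset.prod_ite]
  simp

/-- **A fixed form is bounded in the scaled frames.** -/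
theorem scaled_bound (T : MultilinearMap ℝ (fun _ : ι => H) ℝ) (b : Fin 4 → H)
    (s : H → H) {p q : Fin 4} (hpq : p ≠ q) {c : ℝ} (hc : c ≠ 0)
    (hs : ∀ k, s (b k) = b k + if k = p then c • b q else 0)
    (hT : ∀ x : ι → H, T (fun i => s (x i)) = T x) {r : ℝ} (hr : 1 ≤ r) (τ : ι → Fin 4) :
    |T (fun i => scl p q r b (τ i))| ≤ |T (fun i => b (τ i))| := by
  rw [form_scl T b hpq]
  by_cases h : (Finset.univ.filter fun i => τ i = p).card <
      (Finset.univ.filter fun i => τ i = q).card
  · rw [weights_of_fixed_form T b s hpq hc hs hT h]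
    simp
  · have h := not_lt.1 h
    have hr0 : 0 < r := by linarith
    rw [abs_mul, abs_of_pos (by positivity : (0 : ℝ) <
      r ^ (Finset.univ.filter fun i => τ i = q).card *
      (r⁻¹) ^ (Finset.univ.filter fun i => τ i = p).card)]
    have h1 : r ^ (Finset.univ.filter fun i => τ i = q).card *
        (r⁻¹) ^ (Finset.univ.filter fun i => τ i = p).card ≤ 1 := by
      rw [inv_pow, ← div_eq_mul_inv, div_le_one (by positivity)]
      exact pow_le_pow_right₀ hr h
    have := abs_nonneg (T (fun i => b (τ i)))
    nlinarith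

end Form

end Vale.Agent.P273.H266
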